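import Vale.Agent.P142.Flux.Certs.M118.Gram0p0
import Vale.Agent.P142.Flux.Certs.M118.Gram1p0
import Vale.Agent.P142.Flux.Certs.M118.Gram2p0
import Vale.Agent.P142.Flux.Certs.M118.Gram2p1
import Vale.Agent.P142.Flux.Certs.M118.Gram2p2
import Vale.Agent.P142.Flux.Certs.M118.Density0
import Vale.Agent.P142.Flux.Certs.M118.Density1
import Vale.Agent.P142.Flux.Certs.M118.Density2
import Vale.Agent.P142.Flux.Certs.M118.Density3
import Vale.Agent.P142.Flux.Certs.M118.Density4
import Vale.Agent.P142.Flux.Certs.M118.Density5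
import Vale.Agent.P142.Flux.Certs.M118.Density6
import Vale.Agent.P142.Flux.Certs.M118.Density7
import Vale.Agent.P142.Flux.Certs.M118.Density8
import Vale.Agent.P142.Flux.Certs.M118.Density9
import Vale.Agent.P142.Flux.Certs.M118.Density10
import Vale.Agent.P142.Flux.Certs.M118.Density11
import Vale.Agent.P142.Flux.Certs.M118.Density12

/-!
A certificate assembled from its checked parts.
-/

namespace Vale.Agent.P142.Flux.Certs.M118

open Vale.Agent.P142.Flux

def pieces0 : List Contrib.Piece := [piece0p0]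

theorem pieces0Ok : ∀ p ∈ pieces0, Contrib.pieceOk blk0 codes 63 p.1 p.2.1 p.2.2.1 p.2.2.2.1 p.2.2.2.2 = true :=
  List.forall_mem_cons.2 ⟨piece0p0Ok, List.forall_mem_nil _⟩

theorem keysSame0 : Contrib.sameKeys blk0 0 (pieces0.map Prod.fst).flatten = true := by decide +kernel

def pieces1 : List Contrib.Piece := [piece1p0]

theorem pieces1Ok : ∀ p ∈ pieces1, Contrib.pieceOk blk1 codes 63 p.1 p.2.1 p.2.2.1 p.2.2.2.1 p.2.2.2.2 = true :=
  List.forall_mem_cons.2 ⟨piece1p0Ok, List.forall_mem_nil _⟩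

theorem keysSame1 : Contrib.sameKeys blk1 0 (pieces1.map Prod.fst).flatten = true := by decide +kernel

def pieces2 : List Contrib.Piece := [piece2p0, piece2p1, piece2p2]

theorem pieces2Ok : ∀ p ∈ pieces2, Contrib.pieceOk blk2 codes 63 p.1 p.2.1 p.2.2.1 p.2.2.2.1 p.2.2.2.2 = true :=
  List.forall_mem_cons.2 ⟨piece2p0Ok, List.forall_mem_cons.2 ⟨piece2p1Ok, List.forall_mem_cons.2 ⟨piece2p2Ok, List.forall_mem_nil _⟩⟩⟩

theorem keysSame2 : Contrib.sameKeys blk2 0 (pieces2.map Prod.fst).flatten = true := by decide +kernel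

def density : List Chunk.Piece := [dens0, dens1, dens2, dens3, dens4, dens5, dens6, dens7, dens8, dens9, dens10, dens11, dens12]

theorem densityOk : ∀ p ∈ density, Chunk.ok (59) (50) 50 9 codes 63 p.1 p.2.1 p.2.2.1 p.2.2.2.1 p.2.2.2.2.1 p.2.2.2.2.2.1 p.2.2.2.2.2.2 = true :=
  List.forall_mem_cons.2 ⟨dens0Ok, List.forall_mem_cons.2 ⟨dens1Ok, List.forall_mem_cons.2 ⟨dens2Ok, List.forall_mem_cons.2 ⟨dens3Ok, List.forall_mem_cons.2 ⟨dens4Ok, List.forall_mem_cons.2 ⟨dens5Ok, List.forall_mem_cons.2 ⟨dens6Ok, List.forall_mem_cons.2 ⟨dens7Ok, List.forall_mem_cons.2 ⟨dens8Ok, List.forall_mem_cons.2 ⟨dens9Ok, List.forall_mem_cons.2 ⟨dens10Ok, List.forall_mem_cons.2 ⟨dens11Ok, List.forall_mem_cons.2 ⟨dens12Ok, List.forall_mem_nil _⟩⟩⟩⟩⟩⟩⟩⟩⟩⟩⟩⟩⟩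

def posSum : ℕ := Nat.add (Nat.add (Chunk.pieceSum (fun p => p.2.2.2.1) density) 0) (Nat.add (Nat.add (Contrib.pieceSum (fun p => p.2.2.1) pieces0) (Contrib.pieceSum (fun p => p.2.2.1) pieces1)) (Contrib.pieceSum (fun p => p.2.2.1) pieces2))

def negSum : ℕ := Nat.add (Nat.add (Chunk.pieceSum (fun p => p.2.2.2.2.1) density) (Nat.shiftLeft (Nat.mul 9 11598233600) (Nat.mul 63 0))) (Nat.add (Nat.add (Contrib.pieceSum (fun p => p.2.1) pieces0) (Contrib.pieceSum (fun p => p.2.1) pieces1)) (Contrib.pieceSum (fun p => p.2.1) pieces2))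

def posTot : ℕ := Nat.add (Nat.add (Chunk.pieceSum (fun p => p.2.2.2.2.2.1) density) 0) (Nat.add (Nat.add (Contrib.pieceSum (fun p => p.2.2.2.2) pieces0) (Contrib.pieceSum (fun p => p.2.2.2.2) pieces1)) (Contrib.pieceSum (fun p => p.2.2.2.2) pieces2))

def negTot : ℕ := Nat.add (Nat.add (Chunk.pieceSum (fun p => p.2.2.2.2.2.2) density) (Nat.mul 9 11598233600)) (Nat.add (Nat.add (Contrib.pieceSum (fun p => p.2.2.2.1) pieces0) (Contrib.pieceSum (fun p => p.2.2.2.1) pieces1)) (Contrib.pieceSum (fun p => p.2.2.2.1) pieces2))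

theorem balanced : (Nat.beq posSum negSum && Nat.blt posTot (2 ^ 63) && Nat.blt negTot (2 ^ 63)) = true := by decide +kernel

/-- The certificate at weight `50 / 50` and exponent `59 / 50`. -/
theorem cert : ∃ (P Q : ℂ × ℂ × ℂ → ℝ) (c : ℝ), CertT (((50 : ℤ) : ℝ) / (50 : ℕ)) (((59 : ℤ) : ℝ) / (50 : ℕ)) c P Q := by
  refine ⟨_, _, _, Chunk.certT_of_balance (K := 4294967296) (M := 9) (C := 11598233600) (codes := codes) (W := 63)
    (P := posSum) (Q := negSum) (tp := posTot) (tq := negTot)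
    (by norm_num) (by norm_num) (by norm_num) (by norm_num) (Chunk.allP density) (Chunk.allQ density)
    (fun a ha => ?_) balanced⟩
  have r0 := Contrib.block_rep (W := 63) (codes := codes) a table0 keys0 pieces0 pieces0Ok
  have n0 := Contrib.gram_nonneg ha keysSame0 g0Ok
  have r1 := Contrib.block_rep (W := 63) (codes := codes) a table1 keys1 pieces1 pieces1Ok
  have n1 := Contrib.gram_nonneg ha keysSame1 g1Ok
  have r2 := Contrib.block_rep (W := 63) (codes := codes) a table2 keys2 pieces2 pieces2Ok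
  have n2 := Contrib.gram_nonneg ha keysSame2 g2Ok
  refine ⟨_, ?_, ((Chunk.pieces_rep (by norm_num) a density densityOk).add (Chunk.const_rep a (by decide +kernel))).add (((r0.add r1).add r2)).neg⟩
  linarith

end Vale.Agent.P142.Flux.Certs.M118
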